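import Vale.Agent.P174.Defs

namespace Vale.Agent.P174

open Monoid

variable {R : Type} [Ring R] {G : Type} [Group G] {κ : Type}

theorem row_one : row R (1 : M G κ) = 0 := by simp [row]

theorem row_mul (a b : M G κ) : row R (a * b) = row R a + row R b := by
  simp [row]

theorem row_inl (g : G) : row R (Coprod.inl g : M G κ) = 0 := by
  simp [row, expo]

theorem row_of (j : κ) :
    row R (Coprod.inr (FreeGroup.of j) : M G κ) = Finsupp.single j 1 := by
  simp [row, expo]

theorem row_inv (a : M G κ) : row R a⁻¹ = - row R a := by simp [row]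

/-- Induction principle for `M G κ`. -/
theorem M_induction {P : M G κ → Prop} (h1 : ∀ g, P (Coprod.inl g))
    (h2 : ∀ j, P (Coprod.inr (FreeGroup.of j)))
    (hinv : ∀ a, P a → P a⁻¹) (hmul : ∀ a b, P a → P b → P (a * b)) (z : M G κ) : P z := by
  induction z using Coprod.induction_on with
  | inl g => exact h1 g
  | inr y =>
    induction y using FreeGroup.induction_on with
    | C1 => rw [map_one]; simpa using h1 1
    | of j => exact h2 j
    | inv_of j hj => rw [map_inv]; exact hinv _ hj
    | mul a b ha hb => rw [map_mul]; exact hmul _ _ ha hb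
  | mul a b ha hb => exact hmul _ _ ha hb

/-- Functoriality in the coefficient group. -/
def mapG {G' : Type} [Group G'] (f : G →* G') : M G κ →* M G' κ :=
  Coprod.lift (Coprod.inl.comp f) Coprod.inr

theorem row_mapG {G' : Type} [Group G'] (f : G →* G') (z : M G κ) :
    row R (mapG f z) = row R z := by
  induction z using M_induction with
  | h1 g => simp [mapG, row_inl]
  | h2 j => simp [mapG, row_of]
  | hinv a ha => rw [map_inv, row_inv, row_inv, ha]
  | hmul a b ha hb => rw [map_mul, row_mul, row_mul, ha, hb]

theorem lift_mapG {G' H : Type} [Group G'] [Group H] (f : G →* G') (j : G' →* H)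
    (h : κ → H) (z : M G κ) :
    Coprod.lift j (FreeGroup.lift h) (mapG f z) =
      Coprod.lift (j.comp f) (FreeGroup.lift h) z := by
  induction z using M_induction with
  | h1 g => simp [mapG]
  | h2 j => simp [mapG]
  | hinv a ha => rw [map_inv, map_inv, map_inv, ha]
  | hmul a b ha hb => rw [map_mul, map_mul, map_mul, ha, hb]

theorem row_cast (p : ℕ) (z : M G κ) (j : κ) :
    row (ZMod p) z j = ((row ℤ z j : ℤ) : ZMod p) := by
  induction z using M_induction with
  | h1 g => simp [row_inl]
  | h2 i => rw [row_of, row_of]; by_cases hij : i = j <;> simp [hij]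
  | hinv a ha => simp [row_inv, ha]
  | hmul a b ha hb => simp [row_mul, ha, hb]

theorem row_cast_rat (z : M G κ) (j : κ) :
    row ℚ z j = ((row ℤ z j : ℤ) : ℚ) := by
  induction z using M_induction with
  | h1 g => simp [row_inl]
  | h2 i => rw [row_of, row_of]; by_cases hij : i = j <;> simp [hij]
  | hinv a ha => simp [row_inv, ha]
  | hmul a b ha hb => simp [row_mul, ha, hb]

end Vale.Agent.P174
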