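import Vale.Agent.P174.GR.Final

/-!
Central extensions of quotients of products of unitary groups, their products and quotients.
-/

noncomputable section

open Monoid

namespace Vale.Agent.P174

/-- `L` is a quotient of a product of unitary groups. -/
def UnitaryImage (L : Type) [Group L] : Prop :=
  ∃ (I : Type) (d : I → ℕ) (f : (∀ i, Matrix.unitaryGroup (Fin (d i)) ℂ) →* L),
    Function.Surjective f

/-- `E` is a central extension of a quotient of a product of unitary groups. -/
def CentralUnitary (E : Type) [Group E] : Prop :=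
  ∃ (L : Type) (_ : Group L) (ρ : E →* L),
    UnitaryImage L ∧ Function.Surjective ρ ∧ ρ.ker ≤ Subgroup.center E

/-- `G` embeds in a quotient of a product of central extensions of quotients of products of
unitary groups. -/
def CApprox (G : Type) [Group G] : Prop :=
  ∃ (J : Type) (E : J → Type) (_ : ∀ j, Group (E j)) (_ : ∀ j, CentralUnitary (E j))
    (K : Subgroup (∀ j, E j)) (_ : K.Normal) (φ : G →* (∀ j, E j) ⧸ K), Function.Injective φ

/-- Nonsingular systems over a quotient of a product of unitary groups are solvable in it. -/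
theorem UnitaryImage.solve {L : Type} [Group L] (hL : UnitaryImage L) {m n : ℕ}
    (w : Fin m → M L (Fin n)) (hw : LinearIndependent ℚ (fun i => row ℚ (w i))) :
    ∃ x : Fin n → L, ∀ i, Coprod.lift (MonoidHom.id _) (FreeGroup.lift x) (w i) = 1 := by
  obtain ⟨I, d, f, hf⟩ := hL
  have hmn : m ≤ n := by simpa using hw.fintype_card_le_finrank
  choose w' hw' using fun i => mapG_surjective f hf (w i)
  have hrow : ∀ i, row ℚ (w' i) = row ℚ (w i) := fun i => by
    rw [← hw' i, row_mapG]
  have hsol := fun a => GR.solve_unitary (k := d a) (n - m) m n (by omega)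
    (fun i => mapG (Pi.evalMonoidHom _ a) (w' i)) (by simpa [row_mapG, hrow] using hw)
  choose x hx using hsol
  refine ⟨fun j => f fun a => x a j, fun i => ?_⟩
  have h4 : Coprod.lift f (FreeGroup.lift fun j => f fun a => x a j) =
      f.comp (Coprod.lift (MonoidHom.id _) (FreeGroup.lift fun j => fun a => x a j)) := by
    refine Coprod.hom_ext ?_ ?_
    · ext g; simp
    · ext j; simp
  rw [← hw' i, lift_mapG, MonoidHom.id_comp, h4, MonoidHom.comp_apply, show Coprod.lift
    (MonoidHom.id _) (FreeGroup.lift fun j => fun a => x a j) (w' i) = 1 from ?_, map_one]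
  funext a
  have h5 : (Pi.evalMonoidHom _ a).comp
      (Coprod.lift (MonoidHom.id _) (FreeGroup.lift fun j => fun a => x a j)) =
      Coprod.lift (Pi.evalMonoidHom (fun a => Matrix.unitaryGroup (Fin (d a)) ℂ) a)
        (FreeGroup.lift (x a)) := by
    refine Coprod.hom_ext ?_ ?_
    · ext g; simp
    · ext j; simp
  have h7 := hx a i
  rw [lift_mapG, MonoidHom.id_comp] at h7
  exact (DFunLike.congr_fun h5 (w' i)).trans h7

theorem UApprox.capprox {G : Type} [Group G] (hG : UApprox G) : CApprox G := by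
  obtain ⟨I, d, K, hK, φ, hφ⟩ := hG
  refine ⟨Unit, fun _ => (∀ i, Matrix.unitaryGroup (Fin (d i)) ℂ) ⧸ K, fun _ => inferInstance,
    fun _ => ⟨_, inferInstance, MonoidHom.id _,
      ⟨I, d, QuotientGroup.mk' K, QuotientGroup.mk'_surjective K⟩, Function.surjective_id, ?_⟩, ⊥, inferInstance,
    (QuotientGroup.mk' ⊥).comp (MonoidHom.pi fun _ => φ), ?_⟩
  · simp [MonoidHom.ker_id]
  · intro a b h
    have h' := (QuotientGroup.eq).1 h
    rw [Subgroup.mem_bot, inv_mul_eq_one] at h'
    exact hφ (congrFun h' ())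

theorem capprox_comm (A : Type) [CommGroup A] : CApprox A := by
  refine ⟨Unit, fun _ => A, fun _ => inferInstance,
    fun _ => ⟨Unit, inferInstance, 1, ⟨Empty, fun i => i.elim, 1, fun x => ⟨1, rfl⟩⟩,
      fun x => ⟨1, rfl⟩, ?_⟩, ⊥, inferInstance,
    (QuotientGroup.mk' ⊥).comp (MonoidHom.pi fun _ => MonoidHom.id A), ?_⟩
  · intro a _
    rw [Subgroup.mem_center_iff]
    exact fun b => mul_comm b a
  · intro a b h
    have h' := (QuotientGroup.eq).1 h
    rw [Subgroup.mem_bot, inv_mul_eq_one] at h'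
    exact congrFun h' ()

theorem exists_divisible_hull (A : Type) [AddCommGroup A] :
    ∃ (D : Type) (_ : AddCommGroup D) (ι : A →+ D), Function.Injective ι ∧
      ∀ k : ℤ, k ≠ 0 → ∀ z : D, ∃ y, k • y = z := by
  refine ⟨CharacterModule A → AddCircle (1 : ℚ), inferInstance,
    AddMonoidHom.pi (fun χ : CharacterModule A => χ), ?_, fun k hk z => ?_⟩
  · rw [injective_iff_map_eq_zero]
    intro a ha
    exact CharacterModule.eq_zero_of_character_apply fun χ => congrFun ha χ
  · exact ⟨fun χ => DivisibleBy.div (z χ) k, funext fun χ => DivisibleBy.div_cancel (z χ) hk⟩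

/-- A central extension enlarges to one with divisible kernel, by central elements only. -/
theorem exists_central_hull {E L : Type} [Group E] [Group L] (ρ : E →* L)
    (hc : ρ.ker ≤ Subgroup.center E) :
    ∃ (E' D : Type) (_ : Group E') (_ : AddCommGroup D) (ι : E →* E') (ρ' : E' →* L)
      (c : Multiplicative D →* E'), Function.Injective ι ∧ ρ'.comp ι = ρ ∧
        (∀ x, ∃ z e, c z * ι e = x) ∧ (∀ z x, c z * x = x * c z) ∧
        (∀ z, ρ' (c z) = 1) ∧ (∀ x, ρ' x = 1 → ∃ z, c z = x) ∧
        ∀ k : ℤ, k ≠ 0 → ∀ z : D, ∃ y, k • y = z := by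
  have hcomm : ∀ a ∈ ρ.ker, ∀ b : E, b * a = a * b := fun a ha b =>
    Subgroup.mem_center_iff.1 (hc ha) b
  letI : CommGroup ρ.ker :=
    { (inferInstance : Group ρ.ker) with
      mul_comm := fun a b => Subtype.ext (hcomm b b.2 a) }
  obtain ⟨D, iD, θ, hθ, hdiv⟩ := exists_divisible_hull (Additive ρ.ker)
  let μ : ρ.ker → (Multiplicative D × E) := fun z => (Multiplicative.ofAdd (θ (Additive.ofMul z)), (z : E)⁻¹)
  let N : Subgroup (Multiplicative D × E) :=
    { carrier := Set.range μ
      one_mem' := ⟨1, by simp [μ]⟩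
      mul_mem' := by
        rintro _ _ ⟨a, rfl⟩ ⟨b, rfl⟩
        refine ⟨a * b, Prod.ext ?_ ?_⟩
        · simp [μ]
        · show ((a * b : ρ.ker) : E)⁻¹ = (a : E)⁻¹ * (b : E)⁻¹
          rw [← mul_inv_rev, Subgroup.coe_mul, hcomm b b.2 a]
      inv_mem' := by
        rintro _ ⟨a, rfl⟩
        exact ⟨a⁻¹, by simp [μ]⟩ }
  haveI : N.Normal := ⟨by
    rintro _ ⟨a, rfl⟩ g
    refine ⟨a, Prod.ext ?_ ?_⟩
    · simp [μ]
    · show (a : E)⁻¹ = g.2 * (a : E)⁻¹ * g.2⁻¹
      rw [hcomm _ (ρ.ker.inv_mem a.2) g.2, mul_inv_cancel_right]⟩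
  have hN : N ≤ (ρ.comp (MonoidHom.snd (Multiplicative D) E)).ker := by
    rintro _ ⟨a, rfl⟩
    show ρ ((a : E)⁻¹) = 1
    rw [map_inv, MonoidHom.mem_ker.1 a.2, inv_one]
  refine ⟨(Multiplicative D × E) ⧸ N, D, inferInstance, iD, (QuotientGroup.mk' N).comp (MonoidHom.inr _ _),
    QuotientGroup.lift N (ρ.comp (MonoidHom.snd _ _)) hN,
    (QuotientGroup.mk' N).comp (MonoidHom.inl _ _), ?_, ?_, ?_, ?_, ?_, ?_, hdiv⟩
  · rw [injective_iff_map_eq_one]
    intro e he
    obtain ⟨a, ha⟩ := (QuotientGroup.eq_one_iff _).1 he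
    have h1 : Additive.ofMul a = 0 := hθ (by simpa [μ] using congrArg Prod.fst ha)
    have h2 : (a : E)⁻¹ = e := congrArg Prod.snd ha
    rw [← h2, show a = 1 from h1]; simp
  · ext e; simp
  · intro x
    induction x using QuotientGroup.induction_on with
    | H t =>
      refine ⟨t.1, t.2, ?_⟩
      show (QuotientGroup.mk' N) (t.1, (1 : E)) * (QuotientGroup.mk' N) (1, t.2) = _
      rw [← map_mul, show (t.1, (1 : E)) * (1, t.2) = t by ext <;> simp]
      rfl
  · intro z x
    induction x using QuotientGroup.induction_on with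
    | H t =>
      show (QuotientGroup.mk' N) (z, (1 : E)) * (QuotientGroup.mk' N) t
        = (QuotientGroup.mk' N) t * (QuotientGroup.mk' N) (z, 1)
      rw [← map_mul, ← map_mul, show (z, (1 : E)) * t = t * (z, 1) by ext <;> simp [mul_comm]]
  · intro z; simp
  · intro x
    induction x using QuotientGroup.induction_on with
    | H t =>
      intro hx
      have ht : t.2 ∈ ρ.ker := hx
      refine ⟨t.1 * Multiplicative.ofAdd (θ (Additive.ofMul ⟨t.2, ht⟩)), QuotientGroup.eq.2 ?_⟩
      refine ⟨⟨t.2, ht⟩⁻¹, Prod.ext ?_ ?_⟩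
      · simp [μ]
      · simp [μ]

/-- Rationally independent integer rows are onto, up to a nonzero multiple. -/
theorem exists_int_right_inverse {m n : ℕ} (A : Fin m → Fin n → ℤ)
    (hA : LinearIndependent ℚ (fun i k => (A i k : ℚ))) :
    ∃ (d : ℤ) (B : Fin n → Fin m → ℤ), d ≠ 0 ∧
      ∀ i l, ∑ k, A i k * B k l = if i = l then d else 0 := by
  classical
  let L : (Fin m → ℚ) →ₗ[ℚ] (Fin n → ℚ) := Fintype.linearCombination ℚ (fun i k => (A i k : ℚ))
  obtain ⟨g, hg⟩ := L.exists_leftInverse_of_injective (LinearMap.ker_eq_bot.2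
    (linearIndependent_iff_injective_fintypeLinearCombination.1 hA))
  let C : Fin n → Fin m → ℚ := fun k l => g (Pi.single k 1) l
  let d : ℕ := ∏ k, ∏ l, (C k l).den
  have hC : ∀ k l, ∃ z : ℤ, (z : ℚ) = (d : ℚ) * C k l := by
    intro k l
    obtain ⟨e, he⟩ : (C k l).den ∣ d :=
      (Finset.dvd_prod_of_mem (fun l => (C k l).den) (Finset.mem_univ l)).trans
        (Finset.dvd_prod_of_mem (fun k => ∏ l, (C k l).den) (Finset.mem_univ k))
    refine ⟨(e : ℤ) * (C k l).num, ?_⟩
    rw [he]
    push_cast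
    conv_rhs => rw [mul_comm ((C k l).den : ℚ), mul_assoc, mul_comm ((C k l).den : ℚ),
      Rat.mul_den_eq_num]
  choose B hB using hC
  refine ⟨d, B, ?_, fun i l => ?_⟩
  · have : 0 < d := Finset.prod_pos fun k _ => Finset.prod_pos fun l _ => (C k l).den_pos
    omega
  · have h1 : g (fun k => (A i k : ℚ)) = Pi.single i 1 := by
      simpa [L, Fintype.linearCombination_apply_single] using
        LinearMap.congr_fun hg (Pi.single i 1)
    have h2 : g (fun k => (A i k : ℚ)) l = ∑ k, (A i k : ℚ) * C k l := by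
      conv_lhs => rw [pi_eq_sum_univ' (fun k => (A i k : ℚ))]
      rw [map_sum, Finset.sum_apply]
      refine Finset.sum_congr rfl fun k _ => ?_
      simp [C]
    have h3 : ((∑ k, A i k * B k l : ℤ) : ℚ) = ((if i = l then (d : ℤ) else 0 : ℤ) : ℚ) := by
      push_cast
      simp only [hB]
      rw [show ∑ k, (A i k : ℚ) * ((d : ℚ) * C k l) = (d : ℚ) * ∑ k, (A i k : ℚ) * C k l by
        rw [Finset.mul_sum]; exact Finset.sum_congr rfl fun k _ => by ring]
      rw [← h2, h1]
      by_cases h : i = l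
      · subst h; simp
      · simp [h, Ne.symm h]
    exact_mod_cast h3

/-- Moving the unknowns by central elements changes a word by its exponent sums. -/
theorem lift_central {G H D : Type} [Group G] [Group H] [AddCommGroup D] {n : ℕ} (j : G →* H)
    (h : Fin n → H) (c : Multiplicative D →* H) (hc : ∀ z x, c z * x = x * c z) (e : Fin n → D)
    (z : M G (Fin n)) :
    Coprod.lift j (FreeGroup.lift fun k => c (Multiplicative.ofAdd (e k)) * h k) z =
      c (Multiplicative.ofAdd (∑ k, row ℤ z k • e k)) * Coprod.lift j (FreeGroup.lift h) z := by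
  induction z using M_induction with
  | h1 g => simp [row_inl]
  | h2 i => simp [row_of, Finsupp.single_apply, Finset.sum_ite_eq]
  | hinv a ha =>
    rw [map_inv, map_inv, ha, mul_inv_rev, ← map_inv c, ← hc, ← ofAdd_neg]
    simp [row_inv, Finset.sum_neg_distrib]
  | hmul a b ha hb =>
    rw [map_mul, map_mul, ha, hb, row_mul]
    simp only [Finsupp.coe_add, Pi.add_apply, add_smul, Finset.sum_add_distrib, ofAdd_add, map_mul]
    simp only [mul_assoc]
    congr 1
    rw [← mul_assoc, ← hc, mul_assoc]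

/-- Nonsingular systems over a central extension of a unitary quotient have solutions in an
overgroup generated by it and central elements. -/
theorem CentralUnitary.solve {E : Type} [Group E] (hE : CentralUnitary E) {m n : ℕ}
    (w : Fin m → M E (Fin n)) (hw : LinearIndependent ℚ (fun i => row ℚ (w i))) :
    ∃ (E' : Type) (_ : Group E') (ι : E →* E') (x : Fin n → E'), Function.Injective ι ∧
      (∀ u : E', ∃ z e, (∀ v, z * v = v * z) ∧ z * ι e = u) ∧
      ∀ i, Coprod.lift ι (FreeGroup.lift x) (w i) = 1 := by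
  obtain ⟨L, iL, ρ, hL, hρ, hker⟩ := hE
  obtain ⟨x0, hx0⟩ := hL.solve (fun i => mapG ρ (w i))
    (by simpa [row_mapG] using hw)
  obtain ⟨E', D, iE', iD, ι, ρ', c, hι, hρ', hgen, hcen, hc1, hkerc, hdiv⟩ :=
    exists_central_hull ρ hker
  choose e0 he0 using fun k => hρ (x0 k)
  have hz : ∀ i, ∃ z, c z = Coprod.lift ι (FreeGroup.lift fun k => ι (e0 k)) (w i) := by
    intro i
    refine hkerc _ ?_
    have h : ρ'.comp (Coprod.lift ι (FreeGroup.lift fun k => ι (e0 k))) =
        Coprod.lift ρ (FreeGroup.lift x0) := by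
      refine Coprod.hom_ext ?_ ?_
      · ext g; simp [← hρ']
      · ext k; simp [← he0, ← hρ']
    have h1 := DFunLike.congr_fun h (w i)
    have h2 := hx0 i
    rw [lift_mapG, MonoidHom.id_comp] at h2
    rw [h2] at h1
    exact h1
  choose z hz using hz
  obtain ⟨q, B, hq, hB⟩ := exists_int_right_inverse (fun i k => row ℤ (w i) k) (by
    rw [Fintype.linearIndependent_iff]
    intro a ha
    refine Fintype.linearIndependent_iff.1 hw a ?_
    ext k
    simpa [Finsupp.coe_finsetSum, row_cast_rat] using congrFun ha k)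
  choose y hy using fun i => hdiv q hq (-(Multiplicative.toAdd (z i)))
  let e : Fin n → D := fun k => ∑ l, B k l • y l
  refine ⟨E', iE', ι, fun k => c (Multiplicative.ofAdd (e k)) * ι (e0 k), hι, fun u => ?_,
    fun i => ?_⟩
  · obtain ⟨a, b, hab⟩ := hgen u
    exact ⟨c a, b, hcen a, hab⟩
  · have hsum : ∑ k, row ℤ (w i) k • e k = -(Multiplicative.toAdd (z i)) := by
      rw [← hy i]
      simp only [e, Finset.smul_sum, smul_smul]
      rw [Finset.sum_comm]
      simp only [← Finset.sum_smul, hB]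
      simp [ite_smul, Finset.sum_ite_eq]
    rw [lift_central ι (fun k => ι (e0 k)) c hcen e, ← hz i, hsum, ← map_mul]
    simp

theorem CApprox.solvable {G : Type} [Group G] (hG : CApprox G) {m n : ℕ}
    (w : Fin m → M G (Fin n)) (hw : LinearIndependent ℚ (fun i => row ℚ (w i))) :
    Solvable w := by
  obtain ⟨J, E, iE, hE, K, hK, φ, hφ⟩ := hG
  choose w' hw' using fun i =>
    mapG_surjective (QuotientGroup.mk' K) (QuotientGroup.mk'_surjective K) (mapG φ (w i))
  have hrow : ∀ i, row ℚ (w' i) = row ℚ (w i) := fun i => by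
    rw [← row_mapG (QuotientGroup.mk' K) (w' i), hw' i, row_mapG]
  choose E' iE' ι x hι hgen hx using fun j => (hE j).solve
    (fun i => mapG (Pi.evalMonoidHom E j) (w' i)) (by simpa [row_mapG, hrow] using hw)
  let P : (∀ j, E j) →* ∀ j, E' j := MonoidHom.pi fun j => (ι j).comp (Pi.evalMonoidHom E j)
  have hP : Function.Injective P := fun a b h => funext fun j => hι j (congrFun h j)
  haveI : (K.map P).Normal := ⟨by
    rintro _ ⟨k, hk, rfl⟩ u
    choose zc e hcen hze using fun j => hgen j (u j)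
    refine ⟨e * k * e⁻¹, hK.conj_mem k hk e, funext fun j => ?_⟩
    show ι j (e j * k j * (e j)⁻¹) = u j * ι j (k j) * (u j)⁻¹
    rw [← hze j, map_mul, map_mul, map_inv, mul_inv_rev,
      show ι j (e j) * ι j (k j) * (ι j (e j))⁻¹ =
        zc j * (ι j (e j) * ι j (k j) * (ι j (e j))⁻¹) * (zc j)⁻¹ by
        rw [hcen j, mul_inv_cancel_right]]
    simp only [mul_assoc]⟩
  let Q : ((∀ j, E j) ⧸ K) →* (∀ j, E' j) ⧸ K.map P :=
    QuotientGroup.map K (K.map P) P (Subgroup.le_comap_map P K)
  have hQ : Function.Injective Q := by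
    rw [injective_iff_map_eq_one]
    intro a
    induction a using QuotientGroup.induction_on with
    | H a =>
      intro ha
      obtain ⟨k, hk, hka⟩ := (QuotientGroup.eq_one_iff _).1 ha
      rw [hP hka] at hk
      exact (QuotientGroup.eq_one_iff _).2 hk
  refine ⟨_, inferInstance, Q.comp φ, fun k => QuotientGroup.mk' (K.map P) fun j => x j k,
    hQ.comp hφ, fun i => ?_⟩
  rw [← lift_mapG φ Q, ← hw' i, lift_mapG]
  have he : Coprod.lift (Q.comp (QuotientGroup.mk' K))
      (FreeGroup.lift fun k => QuotientGroup.mk' (K.map P) fun j => x j k) =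
      (QuotientGroup.mk' (K.map P)).comp
        (Coprod.lift P (FreeGroup.lift fun k => fun j => x j k)) := by
    refine Coprod.hom_ext ?_ ?_
    · ext g; simp [Q]
    · ext k; simp
  rw [he, MonoidHom.comp_apply,
    show Coprod.lift P (FreeGroup.lift fun k => fun j => x j k) (w' i) = 1 from ?_, map_one]
  funext j
  have h5 : (Pi.evalMonoidHom E' j).comp
      (Coprod.lift P (FreeGroup.lift fun k => fun j => x j k)) =
      Coprod.lift ((ι j).comp (Pi.evalMonoidHom E j)) (FreeGroup.lift (x j)) := by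
    refine Coprod.hom_ext ?_ ?_
    · ext g; simp [P]
    · ext k; simp
  have h7 := hx j i
  rw [lift_mapG] at h7
  exact (DFunLike.congr_fun h5 (w' i)).trans h7

theorem CApprox.howie {p : ℕ} [Fact p.Prime] {G : Type} [Group G] (hG : CApprox G) :
    Howie p G := fun _ _ w hw => hG.solvable w (rat_independent w hw)

end Vale.Agent.P174
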