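import Vale.Agent.P174.Basic

namespace Vale.Agent.P174

open Monoid

variable {G : Type} [Group G] {p : ℕ}

/-- Every element involves only finitely many unknowns. -/
theorem exists_support {κ : Type} (z : M G κ) :
    ∃ s : Finset κ, ∀ (H : Type) [Group H] (j : G →* H) (h h' : κ → H),
      (∀ k ∈ s, h k = h' k) →
        Coprod.lift j (FreeGroup.lift h) z = Coprod.lift j (FreeGroup.lift h') z := by
  classical
  induction z using M_induction with
  | h1 g => exact ⟨∅, fun H _ j h h' _ => by simp⟩
  | h2 k => exact ⟨{k}, fun H _ j h h' hh => by simpa using hh k (Finset.mem_singleton_self k)⟩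
  | hinv a ha =>
    obtain ⟨s, hs⟩ := ha
    exact ⟨s, fun H _ j h h' hh => by rw [map_inv, map_inv, hs H j h h' hh]⟩
  | hmul a b ha hb =>
    obtain ⟨s, hs⟩ := ha
    obtain ⟨t, ht⟩ := hb
    exact ⟨s ∪ t, fun H _ j h h' hh => by
      rw [map_mul, map_mul, hs H j h h' fun k hk => hh k (Finset.mem_union_left _ hk),
        ht H j h h' fun k hk => hh k (Finset.mem_union_right _ hk)]⟩

/-- Finite systems in arbitrarily named unknowns. -/
theorem Howie.finite (hG : Howie p G) {ι κ : Type} [Finite ι] (w : ι → M G κ)
    (hw : LinearIndependent (ZMod p) (fun i => row (ZMod p) (w i))) : Solvable w := by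
  classical
  obtain ⟨m, ⟨eι⟩⟩ := Finite.exists_equiv_fin ι
  have hs := fun i => exists_support (w i)
  choose s hs using hs
  let S : Finset κ := (Set.finite_univ (α := ι)).toFinset.biUnion s
  have hmem : ∀ i, ∀ k ∈ s i, k ∈ S := fun i k hk => by
    simp only [S, Finset.mem_biUnion, Set.Finite.mem_toFinset]
    exact ⟨i, trivial, hk⟩
  obtain ⟨n, ⟨e⟩⟩ := Finite.exists_equiv_fin S
  let q : M G κ →* M G (Fin n) := Coprod.lift Coprod.inl
    (FreeGroup.lift fun k =>
      if hk : k ∈ S then Coprod.inr (FreeGroup.of (e ⟨k, hk⟩)) else 1)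
  let b : M G (Fin n) →* M G κ := Coprod.lift Coprod.inl
    (FreeGroup.lift fun a => Coprod.inr (FreeGroup.of ((e.symm a : S) : κ)))
  have hb : ∀ z : M G (Fin n), row (ZMod p) (b z) =
      Finsupp.lmapDomain (ZMod p) (ZMod p) (fun a => ((e.symm a : S) : κ)) (row (ZMod p) z) := by
    intro z
    induction z using M_induction with
    | h1 g => simp [b, row_inl]
    | h2 j => simp [b, row_of]
    | hinv a ha => rw [map_inv, row_inv, ha, row_inv, map_neg]
    | hmul a b' ha hb' => rw [map_mul, row_mul, ha, hb', row_mul, map_add]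
  have hbq : ∀ i, b (q (w i)) = w i := by
    intro i
    have h1 : b.comp q = Coprod.lift Coprod.inl (FreeGroup.lift fun k =>
        if k ∈ S then Coprod.inr (FreeGroup.of k) else 1) := by
      refine Coprod.hom_ext ?_ ?_
      · ext g; simp [b, q]
      · ext k
        by_cases hk : k ∈ S <;> simp [b, q, hk]
    have h2 := hs i (M G κ) Coprod.inl
      (fun k => if k ∈ S then Coprod.inr (FreeGroup.of k) else 1)
      (fun k => Coprod.inr (FreeGroup.of k)) (fun k hk => by simp [hmem i k hk])
    have h3 : Coprod.lift Coprod.inl (FreeGroup.lift fun k => Coprod.inr (FreeGroup.of k)) =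
        MonoidHom.id (M G κ) := by
      refine Coprod.hom_ext ?_ ?_
      · ext g; simp
      · ext k; simp
    rw [← MonoidHom.comp_apply, h1, h2, h3]
    rfl
  have hind : LinearIndependent (ZMod p) (fun i => row (ZMod p) (q (w (eι.symm i)))) := by
    apply LinearIndependent.of_comp
      (Finsupp.lmapDomain (ZMod p) (ZMod p) (fun a => ((e.symm a : S) : κ)))
    have : (Finsupp.lmapDomain (ZMod p) (ZMod p) (fun a => ((e.symm a : S) : κ))) ∘
        (fun i => row (ZMod p) (q (w (eι.symm i)))) =
        (fun i => row (ZMod p) (w i)) ∘ eι.symm := by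
      funext i
      simp only [Function.comp_apply]
      rw [← hb, hbq]
    rw [this]
    exact hw.comp _ eι.symm.injective
  obtain ⟨H, iH, j, h, hj, hsol⟩ := hG m n (fun i => q (w (eι.symm i))) hind
  refine ⟨H, iH, j, fun k => Coprod.lift j (FreeGroup.lift h) (q (Coprod.inr (FreeGroup.of k))),
    hj, fun i => ?_⟩
  have hF : (Coprod.lift j (FreeGroup.lift h)).comp q = Coprod.lift j (FreeGroup.lift
      fun k => Coprod.lift j (FreeGroup.lift h) (q (Coprod.inr (FreeGroup.of k)))) := by
    refine Coprod.hom_ext ?_ ?_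
    · ext g; simp [q]
    · ext k; simp
  rw [← hF]
  have := hsol (eι i)
  simpa using this

/-- Arbitrary systems, by compactness. -/
theorem Howie.general (hG : Howie p G) {ι κ : Type} (w : ι → M G κ)
    (hw : LinearIndependent (ZMod p) (fun i => row (ZMod p) (w i))) : Solvable w := by
  classical
  let K : Subgroup (M G κ) := Subgroup.normalClosure (Set.range w)
  refine ⟨M G κ ⧸ K, inferInstance, (QuotientGroup.mk' K).comp Coprod.inl,
    fun k => QuotientGroup.mk' K (Coprod.inr (FreeGroup.of k)), ?_, fun i => ?_⟩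
  · rw [injective_iff_map_eq_one]
    intro a ha
    have ha' : (Coprod.inl a : M G κ) ∈ K := by
      simpa using ha
    let U : Finset ι → Subgroup (M G κ) := fun s => Subgroup.normalClosure (w '' (s : Set ι))
    have hdir : Directed (· ≤ ·) U := by
      apply Monotone.directed_le
      intro s t hst
      exact Subgroup.normalClosure_mono (Set.image_mono (by exact_mod_cast hst))
    have hN : (⨆ s, U s).Normal := by
      constructor
      intro x hx g
      rw [Subgroup.mem_iSup_of_directed hdir] at hx ⊢
      obtain ⟨s, hs⟩ := hx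
      exact ⟨s, (Subgroup.normalClosure_normal).conj_mem x hs g⟩
    have hle : K ≤ ⨆ s, U s := by
      refine Subgroup.normalClosure_le_normal ?_
      rintro _ ⟨i, rfl⟩
      exact Subgroup.mem_iSup_of_mem {i} (Subgroup.subset_normalClosure ⟨i, by simp, rfl⟩)
    obtain ⟨s, hs⟩ := (Subgroup.mem_iSup_of_directed hdir).1 (hle ha')
    obtain ⟨H, iH, j, h, hj, hsol⟩ := hG.finite (fun i : s => w i)
      (hw.comp (fun i : s => (i : ι)) Subtype.val_injective)
    have hker : U s ≤ (Coprod.lift j (FreeGroup.lift h)).ker := by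
      refine Subgroup.normalClosure_le_normal ?_
      rintro _ ⟨i, hi, rfl⟩
      exact hsol ⟨i, hi⟩
    apply hj
    rw [map_one]
    simpa using MonoidHom.mem_ker.1 (hker hs)
  · have h1 : Coprod.lift ((QuotientGroup.mk' K).comp Coprod.inl)
        (FreeGroup.lift fun k => QuotientGroup.mk' K (Coprod.inr (FreeGroup.of k))) =
        QuotientGroup.mk' K := by
      refine Coprod.hom_ext ?_ ?_
      · ext g; simp
      · ext k; simp
    rw [h1]
    exact (QuotientGroup.eq_one_iff _).2 (Subgroup.subset_normalClosure ⟨i, rfl⟩)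

end Vale.Agent.P174
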