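import Mathlib

namespace Vale.Agent.P174

open Monoid

/-- `M G κ` is the free product of `G` with the free group on `κ`. -/
abbrev M (G : Type) [Group G] (κ : Type) : Type := Coprod G (FreeGroup κ)

/-- Exponent sums of the unknowns, with values in `R`: kills `G`, sends `x_j` to `e_j`. -/
noncomputable def expo (R : Type) [Ring R] {G : Type} [Group G] {κ : Type} :
    M G κ →* Multiplicative (κ →₀ R) :=
  Coprod.lift 1 (FreeGroup.lift fun j => Multiplicative.ofAdd (Finsupp.single j 1))

/-- The row of exponent sums of one equation, with values in `R`. -/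
noncomputable def row (R : Type) [Ring R] {G : Type} [Group G] {κ : Type} (z : M G κ) :
    κ →₀ R :=
  Multiplicative.toAdd (expo R z)

/-- A system `w` over `G` is solvable over `G`. -/
def Solvable {G : Type} [Group G] {ι κ : Type} (w : ι → M G κ) : Prop :=
  ∃ (H : Type) (_ : Group H) (j : G →* H) (h : κ → H),
    Function.Injective j ∧ ∀ i, Coprod.lift j (FreeGroup.lift h) (w i) = 1

/-- Every finite system over `G` whose rows of exponent sums are independent modulo `p`
is solvable over `G`. -/
def Howie (p : ℕ) (G : Type) [Group G] : Prop :=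
  ∀ (m n : ℕ) (w : Fin m → M G (Fin n)),
    LinearIndependent (ZMod p) (fun i => row (ZMod p) (w i)) → Solvable w

/-- `G` is residually a finite `p`-group. -/
def ResP (p : ℕ) (G : Type) [Group G] : Prop :=
  ∀ g : G, g ≠ 1 → ∃ (P : Type) (_ : Group P) (f : G →* P),
    Finite P ∧ IsPGroup p P ∧ f g ≠ 1

end Vale.Agent.P174
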