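import Vale.Agent.P174.Lift

namespace Vale.Agent.P174

open Monoid

/-- Finite `p`-groups: systems with rows independent modulo `p` are solved in finite `p`-groups. -/
theorem finite_pgroup_solvable {p : ℕ} [Fact p.Prime] {ι κ : Type} [Fintype ι] :
    ∀ (d : ℕ) (P : Type) [Group P] [Finite P], Nat.card P = d → IsPGroup p P →
      ∀ w : ι → M P κ, LinearIndependent (ZMod p) (fun i => row (ZMod p) (w i)) →
      ∃ (H : Type) (_ : Group H) (j : P →* H) (h : κ → H), Finite H ∧ IsPGroup p H ∧
        Function.Injective j ∧ ∀ i, Coprod.lift j (FreeGroup.lift h) (w i) = 1 := by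
  classical
  intro d
  induction d using Nat.strong_induction_on with
  | _ d ih =>
    intro P _ _ hcard hP w hw
    rcases subsingleton_or_nontrivial P with hsub | hnt
    · exact ⟨PUnit, inferInstance, 1, fun _ => PUnit.unit, inferInstance,
        fun g => ⟨0, Subsingleton.elim _ _⟩, fun a b _ => Subsingleton.elim a b,
        fun i => Subsingleton.elim _ _⟩
    · haveI := hP.center_nontrivial
      obtain ⟨z, hz⟩ := exists_prime_orderOf_dvd_card' (G := Subgroup.center P) p (by
        obtain ⟨k, hk⟩ := IsPGroup.iff_card.1 (hP.to_subgroup (Subgroup.center P))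
        have h1 : 1 < Nat.card (Subgroup.center P) := Finite.one_lt_card
        rcases Nat.eq_zero_or_pos k with rfl | hkpos
        · rw [hk, pow_zero] at h1; omega
        · rw [hk]; exact dvd_pow_self p hkpos.ne')
      let N : Subgroup P := Subgroup.zpowers (z : P)
      haveI hN : N.Normal := by
        constructor
        intro a ha g
        obtain ⟨k, rfl⟩ := Subgroup.mem_zpowers_iff.1 ha
        have hc : ((z : P) ^ k) ∈ Subgroup.center P := zpow_mem z.2 k
        rw [Subgroup.mem_center_iff.1 hc g, mul_inv_cancel_right]
        exact ha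
      have hNcard : Nat.card N = p := by
        rw [Nat.card_zpowers]
        exact (Subgroup.orderOf_coe z).trans hz
      have hlt : Nat.card (P ⧸ N) < d := by
        have h := Subgroup.card_eq_card_quotient_mul_card_subgroup N
        rw [hNcard, hcard] at h
        have hpos : 0 < Nat.card (P ⧸ N) := Nat.card_pos
        have h2 : 2 ≤ p := (Fact.out : p.Prime).two_le
        nlinarith
      obtain ⟨H, iH, j, x, hfin, hpH, hj, hx⟩ := ih _ hlt (P ⧸ N) rfl (hP.to_quotient N)
        (fun i => mapG (QuotientGroup.mk' N) (w i)) (by simpa [row_mapG] using hw)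
      let φ : P →* H := j.comp (QuotientGroup.mk' N)
      have hker : φ.ker = N := by
        ext g
        simp only [φ, MonoidHom.mem_ker, MonoidHom.comp_apply]
        rw [map_eq_one_iff j hj, QuotientGroup.mk'_apply, QuotientGroup.eq_one_iff]
      have hx' : ∀ i, Coprod.lift φ (FreeGroup.lift x) (w i) = 1 := fun i => by
        rw [← lift_mapG]; exact hx i
      have hkcard : Nat.card φ.ker = Nat.card (Multiplicative (ZMod p)) := by
        rw [hker, hNcard, Nat.card_congr Multiplicative.toAdd, Nat.card_zmod]
      let χ : φ.ker ≃* Multiplicative (ZMod p) :=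
        mulEquivOfPrimeCardEq (p := p) (hkcard.trans (by
          rw [Nat.card_congr Multiplicative.toAdd, Nat.card_zmod]))
          (by rw [Nat.card_congr Multiplicative.toAdd, Nat.card_zmod])
      have hli := lifted_independent φ x (good_of_isPGroup hpH) w hw
      let χ0 : M φ.ker (H × κ) →* Multiplicative (ZMod p) :=
        Coprod.lift χ.toMonoidHom 1
      let a : H × ι → ZMod p := fun q =>
        - Multiplicative.toAdd (χ0 ((theta φ x (w q.2)).left q.1))
      obtain ⟨L, hL⟩ := LinearMap.exists_extend
        ((Finsupp.linearCombination (ZMod p) a).comp hli.repr)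
      have hLa : ∀ q : H × ι, L (row (ZMod p) ((theta φ x (w q.2)).left q.1)) = a q := by
        intro q
        have hq := LinearMap.congr_fun hL ⟨_, Submodule.subset_span (Set.mem_range_self q)⟩
        simp only [LinearMap.comp_apply, Submodule.subtype_apply] at hq
        rw [hq, hli.repr_eq_single q _ rfl, Finsupp.linearCombination_single, one_smul]
      let ψ : M φ.ker (H × κ) →* Multiplicative (ZMod p) :=
        χ0 * (AddMonoidHom.toMultiplicative L.toAddMonoidHom).comp (expo (ZMod p))
      have hψ : ∀ (u : H) i, ψ ((theta φ x (w i)).left u) = 1 := by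
        intro u i
        have h := hLa (u, i)
        apply Multiplicative.toAdd.injective
        simp only [ψ, MonoidHom.mul_apply, MonoidHom.comp_apply, toAdd_mul, toAdd_one]
        change Multiplicative.toAdd (χ0 _) + L (row (ZMod p) _) = 0
        rw [h]
        simp [a]
      have hψinl : ψ.comp Coprod.inl = χ.toMonoidHom := by
        ext g
        simp [ψ, χ0, expo]
      obtain ⟨J, h, hJ, hsol⟩ := wreath_solution φ x w hx' ψ
        (by rw [hψinl]; exact χ.injective) hψ
      refine ⟨RegularWreathProduct (Multiplicative (ZMod p)) H, inferInstance, J, h,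
        inferInstance, ?_, hJ, hsol⟩
      obtain ⟨k, hk⟩ := IsPGroup.iff_card.1 hpH
      refine IsPGroup.of_card (n := Nat.card H + k) ?_
      rw [RegularWreathProduct.card, Nat.card_congr Multiplicative.toAdd, Nat.card_zmod, pow_add,
        ← hk]

end Vale.Agent.P174
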