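import Vale.Agent.P174.FiniteP

namespace Vale.Agent.P174

open Monoid

/-- A residually finite `p`-group embeds in one in which the given system has a solution. -/
theorem resP_solvable {p : ℕ} [Fact p.Prime] {Q : Type} [Group Q] (hQ : ResP p Q)
    {ι κ : Type} [Fintype ι] (w : ι → M Q κ)
    (hw : LinearIndependent (ZMod p) (fun i => row (ZMod p) (w i))) :
    ∃ (H : Type) (_ : Group H) (j : Q →* H) (h : κ → H), ResP p H ∧
      Function.Injective j ∧ ∀ i, Coprod.lift j (FreeGroup.lift h) (w i) = 1 := by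
  classical
  let T : Type := {q : Q // q ≠ 1}
  have hT : ∀ t : T, ∃ (H : Type) (_ : Group H) (j : Q →* H) (h : κ → H),
      Finite H ∧ IsPGroup p H ∧ j t.1 ≠ 1 ∧
        ∀ i, Coprod.lift j (FreeGroup.lift h) (w i) = 1 := by
    intro t
    obtain ⟨P, iP, f, hfin, hpP, hft⟩ := hQ t.1 t.2
    obtain ⟨H, iH, j, h, hfinH, hpH, hj, hsol⟩ :=
      finite_pgroup_solvable (Nat.card P) P rfl hpP (fun i => mapG f (w i))
        (by simpa [row_mapG] using hw)
    refine ⟨H, iH, j.comp f, h, hfinH, hpH, ?_, fun i => ?_⟩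
    · intro he
      exact hft (hj (he.trans (map_one j).symm))
    · rw [← lift_mapG]; exact hsol i
  choose H iH j h hfin hp hne hsol using hT
  refine ⟨∀ t, H t, inferInstance, MonoidHom.pi j, fun k t => h t k, ?_, ?_, fun i => ?_⟩
  · intro g hg
    obtain ⟨t, ht⟩ := Function.ne_iff.1 hg
    exact ⟨H t, iH t, Pi.evalMonoidHom H t, hfin t, hp t, ht⟩
  · rw [injective_iff_map_eq_one]
    intro q hq
    by_contra hq1
    exact hne ⟨q, hq1⟩ (congrFun hq ⟨q, hq1⟩)
  · funext t
    have he : (Pi.evalMonoidHom H t).comp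
        (Coprod.lift (MonoidHom.pi j) (FreeGroup.lift fun k t => h t k)) =
        Coprod.lift (j t) (FreeGroup.lift (h t)) := by
      refine Coprod.hom_ext ?_ ?_
      · ext q; simp
      · ext k; simp
    have := DFunLike.congr_fun he (w i)
    rw [hsol t i] at this
    exact this

/-- The class `Howie p` is closed under extensions by residually finite `p`-groups. -/
theorem Howie.extension {p : ℕ} [Fact p.Prime] {G : Type} [Group G] (N : Subgroup G) [N.Normal]
    (hN : Howie p N) (hQ : ResP p (G ⧸ N)) : Howie p G := by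
  classical
  intro m n w hw
  obtain ⟨H, iH, j, x, hH, hj, hx⟩ := resP_solvable hQ (fun i => mapG (QuotientGroup.mk' N) (w i))
    (by simpa [row_mapG] using hw)
  let φ : G →* H := j.comp (QuotientGroup.mk' N)
  have hker : φ.ker = N := by
    ext g
    simp only [φ, MonoidHom.mem_ker, MonoidHom.comp_apply]
    rw [map_eq_one_iff j hj, QuotientGroup.mk'_apply, QuotientGroup.eq_one_iff]
  have hx' : ∀ i, Coprod.lift φ (FreeGroup.lift x) (w i) = 1 := fun i => by
    rw [← lift_mapG]; exact hx i
  let e : φ.ker →* N := (MulEquiv.subgroupCongr hker).toMonoidHom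
  have hli := lifted_independent φ x (good_of_resP hH) w hw
  obtain ⟨N', iN, J, y, hJ, hy⟩ := hN.general
    (fun q : H × Fin m => mapG e ((theta φ x (w q.2)).left q.1))
    (by simpa [row_mapG] using hli)
  let ψ : M φ.ker (H × Fin n) →* N' := Coprod.lift (J.comp e) (FreeGroup.lift y)
  obtain ⟨K, h, hK, hsol⟩ := wreath_solution φ x w hx' ψ (by
    have : ψ.comp Coprod.inl = J.comp e := by ext g; simp [ψ]
    rw [this]
    exact hJ.comp (MulEquiv.subgroupCongr hker).injective) (by
    intro u i
    have := hy (u, i)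
    rw [lift_mapG] at this
    exact this)
  exact ⟨_, inferInstance, K, h, hK, hsol⟩

/-- Divisibility descent: a relation among integer rows which are independent mod `p` is trivial. -/
theorem int_rows_independent {p : ℕ} [Fact p.Prime] {m n : ℕ} (A : Fin m → Fin n → ℤ)
    (hA : ∀ c : Fin m → ZMod p, (∀ k, ∑ i, c i * (A i k : ZMod p) = 0) → c = 0)
    (c : Fin m → ℤ) (hc : ∀ k, ∑ i, c i * A i k = 0) : c = 0 := by
  have hdvd : ∀ c : Fin m → ℤ, (∀ k, ∑ i, c i * A i k = 0) → ∀ i, (p : ℤ) ∣ c i := by
    intro c hc i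
    rw [← ZMod.intCast_zmod_eq_zero_iff_dvd]
    exact congrFun (hA (fun i => (c i : ZMod p)) fun k => by
      have := congrArg (fun z : ℤ => (z : ZMod p)) (hc k)
      simpa using this) i
  have hall : ∀ (t : ℕ) (c : Fin m → ℤ), (∀ k, ∑ i, c i * A i k = 0) →
      ∀ i, (p : ℤ) ^ t ∣ c i := by
    intro t
    induction t with
    | zero => intro c _ i; simp
    | succ t ih =>
      intro c hc i
      choose d hd using hdvd c hc
      have hd' : ∀ k, ∑ i, d i * A i k = 0 := by
        intro k
        have h := hc k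
        simp only [hd, mul_assoc, ← Finset.mul_sum] at h
        rcases mul_eq_zero.1 h with hp0 | h0
        · exact absurd (by exact_mod_cast hp0) (Fact.out : p.Prime).ne_zero
        · exact h0
      rw [hd i, pow_succ']
      exact mul_dvd_mul_left _ (ih d hd' i)
  funext i
  by_contra hne
  have h1 := Int.natAbs_dvd_natAbs.2 (hall (c i).natAbs c hc i)
  rw [Int.natAbs_pow, Int.natAbs_natCast] at h1
  have h2 := Nat.le_of_dvd (Int.natAbs_pos.2 hne) h1
  have h3 : (c i).natAbs < p ^ (c i).natAbs := Nat.lt_pow_self (Fact.out : p.Prime).one_lt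
  omega

/-- Abelian groups are in the class for every prime. -/
theorem howie_comm {p : ℕ} [Fact p.Prime] (A : Type) [CommGroup A] : Howie p A := by
  classical
  intro m n w hw
  let F : M A (Fin n) →* A × Multiplicative (Fin n →₀ ℤ) :=
    MonoidHom.prod (Coprod.lift (MonoidHom.id A) 1) (expo ℤ)
  let K : Subgroup (A × Multiplicative (Fin n →₀ ℤ)) := Subgroup.closure (Set.range (F ∘ w))
  let π := QuotientGroup.mk' K
  refine ⟨_, inferInstance, (π.comp F).comp Coprod.inl,
    fun k => π (F (Coprod.inr (FreeGroup.of k))), ?_, fun i => ?_⟩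
  · rw [injective_iff_map_eq_one]
    intro a ha
    have ha' : F (Coprod.inl a) ∈ K := (QuotientGroup.eq_one_iff _).1 ha
    obtain ⟨c, hc⟩ : ∃ c : Fin m → ℤ, ∏ i, F (w i) ^ c i = F (Coprod.inl a) := by
      refine Subgroup.closure_induction (p := fun z _ => ∃ c : Fin m → ℤ, ∏ i, F (w i) ^ c i = z)
        ?_ ?_ ?_ ?_ ha'
      · rintro _ ⟨i, rfl⟩
        refine ⟨Pi.single i 1, ?_⟩
        rw [Finset.prod_eq_single i]
        · simp
        · intro b _ hb; simp [hb]
        · simp
      · exact ⟨0, by simp⟩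
      · rintro a b _ _ ⟨c, hc⟩ ⟨d, hd⟩
        exact ⟨c + d, by simp [zpow_add, Finset.prod_mul_distrib, hc, hd]⟩
      · rintro a _ ⟨c, hc⟩
        exact ⟨-c, by simp [hc]⟩
    have hzero : c = 0 := by
      refine int_rows_independent (p := p) (fun i k => row ℤ (w i) k) ?_ c ?_
      · intro d hd
        funext i
        refine Fintype.linearIndependent_iff.1 hw d ?_ i
        ext k
        simpa [Finsupp.coe_finsetSum, row_cast] using hd k
      · intro k
        have h := congrArg (fun z : A × Multiplicative (Fin n →₀ ℤ) =>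
          (Multiplicative.toAdd z.2) k) hc
        simp only [Prod.snd_prod, Prod.pow_snd, toAdd_prod, toAdd_zpow, Finsupp.coe_finsetSum,
          Finset.sum_apply, Finsupp.smul_apply, smul_eq_mul] at h
        simpa [F, row, expo] using h
    have h := congrArg Prod.fst hc
    simpa [hzero, F] using h.symm
  · have he : Coprod.lift ((π.comp F).comp Coprod.inl)
        (FreeGroup.lift fun k => π (F (Coprod.inr (FreeGroup.of k)))) = π.comp F := by
      refine Coprod.hom_ext ?_ ?_
      · ext g; simp
      · ext k; simp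
    rw [he]
    exact (QuotientGroup.eq_one_iff _).2 (Subgroup.subset_closure ⟨i, rfl⟩)

/-- Belonging to the class for infinitely many primes gives all nonsingular systems. -/
theorem nonsingular_solvable {G : Type} [Group G]
    (hG : ∀ b : ℕ, ∃ p, b ≤ p ∧ p.Prime ∧ Howie p G) {m n : ℕ} (w : Fin m → M G (Fin n))
    (hw : LinearIndependent ℚ (fun i => row ℚ (w i))) : Solvable w := by
  classical
  let L : (Fin m → ℚ) →ₗ[ℚ] (Fin n →₀ ℚ) := Fintype.linearCombination ℚ (fun i => row ℚ (w i))
  have hL : LinearMap.ker L = ⊥ := LinearMap.ker_eq_bot.2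
    (linearIndependent_iff_injective_fintypeLinearCombination.1 hw)
  obtain ⟨g, hg⟩ := L.exists_leftInverse_of_injective hL
  let B : Fin n → Fin m → ℚ := fun k i => g (Finsupp.single k 1) i
  let d : ℕ := ∏ k, ∏ i, (B k i).den
  obtain ⟨p, hdp, hp, hH⟩ := hG (d + 1)
  haveI : Fact p.Prime := ⟨hp⟩
  refine hH m n w (Fintype.linearIndependent_iff.2 fun c hc i0 => ?_)
  have hBint : ∀ k i, ∃ z : ℤ, (z : ℚ) = (d : ℚ) * B k i := by
    intro k i
    have hdvd : (B k i).den ∣ d :=
      (Finset.dvd_prod_of_mem (fun i => (B k i).den) (Finset.mem_univ i)).trans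
        (Finset.dvd_prod_of_mem (fun k => ∏ i, (B k i).den) (Finset.mem_univ k))
    obtain ⟨e, he⟩ := hdvd
    refine ⟨(e : ℤ) * (B k i).num, ?_⟩
    rw [he]
    push_cast
    conv_rhs => rw [mul_comm ((B k i).den : ℚ), mul_assoc, mul_comm ((B k i).den : ℚ),
      Rat.mul_den_eq_num]
  choose Z hZ using hBint
  have hid : ∀ i l, ∑ k, row ℤ (w i) k * Z k l = if i = l then (d : ℤ) else 0 := by
    intro i l
    have h1 : g (row ℚ (w i)) = Pi.single i 1 := by
      have := LinearMap.congr_fun hg (Pi.single i 1)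
      simpa [L, Fintype.linearCombination_apply_single] using this
    have h2 : g (row ℚ (w i)) l = ∑ k, row ℚ (w i) k * B k l := by
      conv_lhs => rw [← Finsupp.univ_sum_single (row ℚ (w i))]
      rw [map_sum, Finset.sum_apply]
      refine Finset.sum_congr rfl fun k _ => ?_
      rw [show Finsupp.single k (row ℚ (w i) k) = row ℚ (w i) k • Finsupp.single k (1 : ℚ) by
        simp, map_smul]
      rfl
    have h3 : ((∑ k, row ℤ (w i) k * Z k l : ℤ) : ℚ) =
        ((if i = l then (d : ℤ) else 0 : ℤ) : ℚ) := by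
      push_cast
      simp only [hZ, ← row_cast_rat]
      rw [show ∑ k, row ℚ (w i) k * ((d : ℚ) * B k l) = (d : ℚ) * ∑ k, row ℚ (w i) k * B k l by
        rw [Finset.mul_sum]; exact Finset.sum_congr rfl fun k _ => by ring]
      rw [← h2, h1]
      by_cases h : i = l
      · subst h; simp
      · simp [h, Ne.symm h]
    exact_mod_cast h3
  have hd0 : (d : ZMod p) ≠ 0 := by
    intro h
    rw [ZMod.natCast_eq_zero_iff] at h
    have hd : 0 < d := Finset.prod_pos fun k _ => Finset.prod_pos fun i _ => (B k i).den_pos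
    have := Nat.le_of_dvd hd h
    omega
  have hzero : c i0 * (d : ZMod p) = 0 := by
    have h : ∑ k, (∑ i, c i • row (ZMod p) (w i)) k * (Z k i0 : ZMod p) = 0 := by simp [hc]
    simp only [Finsupp.coe_finsetSum, Finset.sum_apply, Finsupp.smul_apply, smul_eq_mul,
      Finset.sum_mul, row_cast] at h
    rw [Finset.sum_comm] at h
    simp only [mul_assoc, ← Finset.mul_sum, ← Int.cast_mul, ← Int.cast_sum, hid] at h
    simpa using h
  exact (mul_eq_zero.1 hzero).resolve_right hd0

end Vale.Agent.P174
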