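import Vale.Agent.P174.Compact

namespace Vale.Agent.P174

open Monoid

/-- Translate the group coordinate on the right. -/
noncomputable def shift (R : Type) [Ring R] {H : Type} [Group H] {κ : Type} (u : H) :
    ((H × κ) →₀ R) →ₗ[R] ((H × κ) →₀ R) :=
  Finsupp.lmapDomain R R (fun q => (q.1 * u, q.2))

theorem shift_single {R : Type} [Ring R] {H : Type} [Group H] {κ : Type} (u v : H) (j : κ)
    (c : R) : shift R u (Finsupp.single (v, j) c) = Finsupp.single (v * u, j) c := by
  simp [shift]

theorem shift_shift {R : Type} [Ring R] {H : Type} [Group H] {κ : Type} (u v : H)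
    (D : (H × κ) →₀ R) : shift R u (shift R v D) = shift R (v * u) D := by
  induction D using Finsupp.induction_linear with
  | zero => simp
  | add f g hf hg => simp [map_add, hf, hg]
  | single q c => obtain ⟨a, j⟩ := q; simp [shift_single, mul_assoc]

/-- Injectivity, modulo `p`, of all matrices over the group ring with independent augmentation. -/
def Good (p : ℕ) (H : Type) [Group H] : Prop :=
  ∀ (ι κ : Type) [Fintype ι] (D : ι → (H × κ) →₀ ZMod p),
    LinearIndependent (ZMod p)
        (fun i => Finsupp.lmapDomain (ZMod p) (ZMod p) Prod.snd (D i)) →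
      LinearIndependent (ZMod p) (fun q : H × ι => shift (ZMod p) q.1 (D q.2))

theorem sum_shift_apply {R : Type} [Ring R] {H : Type} [Group H] [Fintype H] {κ : Type}
    (D : (H × κ) →₀ R) (v : H) (j : κ) :
    ∑ u : H, shift R u D (v, j) = Finsupp.lmapDomain R R Prod.snd D j := by
  classical
  induction D using Finsupp.induction_linear with
  | zero => simp
  | add f g hf hg => simp [map_add, Finset.sum_add_distrib, hf, hg]
  | single q c =>
    obtain ⟨a, k⟩ := q
    rw [Finset.sum_eq_single (a⁻¹ * v)]
    · by_cases hk : k = j <;> simp [shift_single, hk]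
    · intro u _ hu
      rw [shift_single, Finsupp.single_apply, if_neg]
      intro he
      apply hu
      simp only [Prod.mk.injEq] at he
      rw [← he.1]; simp
    · simp

/-- Finite `p`-groups are good. -/
theorem good_of_isPGroup {p : ℕ} [Fact p.Prime] {H : Type} [Group H] [Finite H]
    (hH : IsPGroup p H) : Good p H := by
  classical
  intro ι κ _ D hD
  cases nonempty_fintype H
  rw [Fintype.linearIndependent_iff]
  let K : Type := {c : H × ι → ZMod p // ∑ q, c q • shift (ZMod p) q.1 (D q.2) = 0}
  have hinv : ∀ (a : H) (c : H × ι → ZMod p),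
      (∑ q, c q • shift (ZMod p) q.1 (D q.2) = 0) →
      ∑ q : H × ι, c (q.1 * a, q.2) • shift (ZMod p) q.1 (D q.2) = 0 := by
    intro a c hc
    have h := congrArg (shift (ZMod p) a⁻¹) hc
    rw [map_sum, map_zero] at h
    rw [← h]
    refine Fintype.sum_equiv ((Equiv.mulRight a).prodCongr (Equiv.refl ι)) _ _ fun q => ?_
    simp [shift_shift, Prod.map]
  let act : MulAction H K :=
    { smul := fun a c => ⟨fun q => c.1 (q.1 * a, q.2), hinv a c.1 c.2⟩
      one_smul := fun c => by
        apply Subtype.ext; funext q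
        change c.1 (q.1 * 1, q.2) = c.1 q
        rw [mul_one]
      mul_smul := fun a b c => by
        apply Subtype.ext; funext q
        change c.1 (q.1 * (a * b), q.2) = c.1 (q.1 * a * b, q.2)
        rw [mul_assoc] }
  let zero : K := ⟨0, by simp⟩
  by_contra hne
  push Not at hne
  obtain ⟨c, hc, i0, hi0⟩ := hne
  have hp : p ∣ Nat.card K := by
    let S : AddSubgroup (H × ι → ZMod p) :=
      { carrier := {c | ∑ q, c q • shift (ZMod p) q.1 (D q.2) = 0}
        zero_mem' := by simp
        add_mem' := by
          intro a b ha hb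
          simp only [Set.mem_ofPred_eq] at ha hb ⊢
          simp [add_smul, Finset.sum_add_distrib, ha, hb]
        neg_mem' := by
          intro a ha
          simp only [Set.mem_ofPred_eq] at ha ⊢
          simp [ha] }
    have hS : Nontrivial S := ⟨⟨c, hc⟩, 0, fun h => hi0 (by
      have := congrFun (congrArg Subtype.val h) i0
      simpa using this)⟩
    have hdvd : Nat.card S ∣ Nat.card (H × ι → ZMod p) := AddSubgroup.card_addSubgroup_dvd_card S
    rw [Nat.card_fun, Nat.card_zmod] at hdvd
    obtain ⟨k, hk, hk'⟩ := (Nat.dvd_prime_pow (Fact.out : p.Prime)).1 hdvd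
    have h1 : 1 < Nat.card S := Finite.one_lt_card
    rcases Nat.eq_zero_or_pos k with rfl | hkpos
    · rw [hk', pow_zero] at h1
      omega
    · change p ∣ Nat.card S
      rw [hk']
      exact dvd_pow_self p hkpos.ne'
  have hzero : zero ∈ MulAction.fixedPoints H K := by
    intro a; rfl
  obtain ⟨f, hf, hfne⟩ := hH.exists_fixed_point_of_prime_dvd_card_of_fixed_point K hp hzero
  have hconst : ∀ u i, f.1 (u, i) = f.1 (1, i) := by
    intro u i
    have := congrArg (fun d : K => d.1 (1, i)) (hf u)
    change f.1 (1 * u, i) = f.1 (1, i) at this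
    simpa using this
  have hsum : ∑ i, f.1 (1, i) • Finsupp.lmapDomain (ZMod p) (ZMod p) Prod.snd (D i) = 0 := by
    ext j
    have h := congrArg (fun x : (H × κ) →₀ ZMod p => x (1, j)) f.2
    simp only [Finsupp.coe_finsetSum, Finset.sum_apply, Finsupp.smul_apply, Finsupp.coe_zero,
      Pi.zero_apply] at h ⊢
    rw [Fintype.sum_prod_type, Finset.sum_comm] at h
    rw [← h]
    refine Finset.sum_congr rfl fun i _ => ?_
    rw [← sum_shift_apply (D i) 1 j, Finset.smul_sum]
    exact Finset.sum_congr rfl fun u _ => by rw [hconst u i]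
  apply hfne
  apply Subtype.ext
  funext q
  have := Fintype.linearIndependent_iff.1 hD _ hsum q.2
  change 0 = f.1 q
  rw [show q = (q.1, q.2) from rfl, hconst, this]

/-- Residually finite `p`-groups are good. -/
theorem good_of_resP {p : ℕ} [Fact p.Prime] {H : Type} [Group H] (hH : ResP p H) :
    Good p H := by
  classical
  intro ι κ _ D hD
  rw [linearIndependent_iff]
  intro c hc
  let S : Finset H := c.support.image Prod.fst
  let T : Type := {q : S × S // (q.1 : H) ≠ q.2}
  have hsep : ∀ q : T, ∃ (P : Type) (_ : Group P) (f : H →* P),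
      Finite P ∧ IsPGroup p P ∧ f ((q.1.1 : H)⁻¹ * q.1.2) ≠ 1 := fun q =>
    hH _ (fun h => q.2 (inv_mul_eq_one.1 h))
  choose P instP f hfin hpg hne using hsep
  haveI : ∀ q, Finite (P q) := hfin
  let π : H →* (∀ q : T, P q) := MonoidHom.pi f
  have hinj : ∀ a ∈ S, ∀ b ∈ S, π a = π b → a = b := by
    intro a ha b hb hab
    by_contra hne'
    have := congrFun hab ⟨(⟨a, ha⟩, ⟨b, hb⟩), hne'⟩
    apply hne ⟨(⟨a, ha⟩, ⟨b, hb⟩), hne'⟩
    simp only [map_mul, map_inv]
    have h2 : f ⟨(⟨a, ha⟩, ⟨b, hb⟩), hne'⟩ a = f ⟨(⟨a, ha⟩, ⟨b, hb⟩), hne'⟩ b := this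
    rw [h2, inv_mul_cancel]
  have hP : IsPGroup p (∀ q : T, P q) := by
    intro g
    choose k hk using fun q => hpg q (g q)
    refine ⟨∑ q, k q, ?_⟩
    funext q
    obtain ⟨d, hd⟩ := pow_dvd_pow p
      (Finset.single_le_sum (f := k) (fun i _ => Nat.zero_le _) (Finset.mem_univ q))
    rw [Pi.pow_apply, hd, pow_mul, hk, one_pow]
    rfl
  let P2 := Finsupp.lmapDomain (ZMod p) (ZMod p) (fun q : H × κ => (π q.1, q.2))
  have hD' : LinearIndependent (ZMod p)
      (fun i => Finsupp.lmapDomain (ZMod p) (ZMod p) Prod.snd (P2 (D i))) := by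
    have he : (fun i => Finsupp.lmapDomain (ZMod p) (ZMod p) Prod.snd (P2 (D i))) =
        fun i => Finsupp.lmapDomain (ZMod p) (ZMod p) Prod.snd (D i) := by
      funext i
      simp only [P2, Finsupp.lmapDomain_apply]
      rw [← Finsupp.mapDomain_comp]
      rfl
    rw [he]
    exact hD
  have hgood := good_of_isPGroup hP ι κ (fun i => P2 (D i)) hD'
  rw [linearIndependent_iff] at hgood
  let c' := Finsupp.mapDomain (fun q : H × ι => (π q.1, q.2)) c
  have hcomm : ∀ (u : H) (x : (H × κ) →₀ ZMod p),
      shift (ZMod p) (π u) (P2 x) = P2 (shift (ZMod p) u x) := by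
    intro u x
    induction x using Finsupp.induction_linear with
    | zero => simp
    | add a b ha hb => simp [map_add, ha, hb]
    | single q r => obtain ⟨v, k⟩ := q; simp [P2, shift_single]
  have hc' : Finsupp.linearCombination (ZMod p)
      (fun q : (∀ q : T, P q) × ι => shift (ZMod p) q.1 (P2 (D q.2))) c' = 0 := by
    rw [Finsupp.linearCombination_mapDomain]
    have : ((fun q : (∀ q : T, P q) × ι => shift (ZMod p) q.1 (P2 (D q.2))) ∘
        fun q : H × ι => (π q.1, q.2)) = P2 ∘ (fun q : H × ι => shift (ZMod p) q.1 (D q.2)) := by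
      funext q
      exact hcomm q.1 (D q.2)
    rw [this, ← Finsupp.apply_linearCombination, hc, map_zero]
  have h0 := hgood c' hc'
  ext q
  by_contra hq
  apply hq
  have hq' : q ∈ c.support := Finsupp.mem_support_iff.2 hq
  have : c' (π q.1, q.2) = c q := by
    apply Finsupp.mapDomain_apply' (c.support : Set (H × ι)) c subset_rfl ?_ hq'
    intro a ha b hb hab
    simp only [Prod.mk.injEq] at hab
    exact Prod.ext (hinj a.1 (Finset.mem_image_of_mem _ ha) b.1
      (Finset.mem_image_of_mem _ hb) hab.1) hab.2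
  rw [← this, h0]
  rfl

end Vale.Agent.P174
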