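import Vale.Agent.P174.Good

namespace Vale.Agent.P174

open Monoid RegularWreathProduct

variable {G H : Type} [Group G] [Group H]

/-- A chosen representative of the left coset of `u` modulo the range of `φ`. -/
noncomputable def rep (φ : G →* H) (u : H) : H :=
  (Quotient.mk'' u : H ⧸ φ.range).out

theorem rep_inv_mul_mem (φ : G →* H) (u : H) : (rep φ u)⁻¹ * u ∈ φ.range :=
  QuotientGroup.eq.1 (QuotientGroup.out_eq' (Quotient.mk'' u : H ⧸ φ.range))

/-- A lift to `G` of the position of `u` inside its coset. -/
noncomputable def sec (φ : G →* H) (u : H) : G :=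
  (rep_inv_mul_mem φ u).choose

theorem map_sec (φ : G →* H) (u : H) : φ (sec φ u) = (rep φ u)⁻¹ * u :=
  (rep_inv_mul_mem φ u).choose_spec

theorem rep_mul (φ : G →* H) (u : H) (g : G) : rep φ (u * φ g) = rep φ u := by
  unfold rep
  congr 1
  refine QuotientGroup.eq.2 ?_
  simp only [mul_inv_rev, inv_mul_cancel_right]
  exact ⟨g⁻¹, map_inv φ g⟩

/-- The component with index `x` of the wreath embedding. -/
noncomputable def comp0 (φ : G →* H) (g : G) (x : H) : φ.ker :=
  ⟨sec φ x⁻¹ * g * (sec φ (x⁻¹ * φ g))⁻¹, by
    rw [MonoidHom.mem_ker, map_mul, map_mul, map_inv, map_sec, map_sec, rep_mul]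
    group⟩

/-- The Kaloujnine-Krasner embedding. -/
noncomputable def emb (φ : G →* H) : G →* (RegularWreathProduct φ.ker H) where
  toFun g := ⟨comp0 φ g, φ g⟩
  map_one' := by
    ext x
    · simp [comp0]
    · simp
  map_mul' a b := by
    refine RegularWreathProduct.ext ?_ (map_mul φ a b)
    funext x
    apply Subtype.ext
    change sec φ x⁻¹ * (a * b) * (sec φ (x⁻¹ * φ (a * b)))⁻¹ =
      sec φ x⁻¹ * a * (sec φ (x⁻¹ * φ a))⁻¹ *
        (sec φ ((φ a)⁻¹ * x)⁻¹ * b * (sec φ (((φ a)⁻¹ * x)⁻¹ * φ b))⁻¹)
    rw [map_mul]
    simp only [mul_inv_rev, inv_inv, mul_assoc, inv_mul_cancel_left]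

theorem emb_injective (φ : G →* H) : Function.Injective (emb φ) := by
  rw [injective_iff_map_eq_one]
  intro g hg
  have hr : φ g = 1 := congrArg RegularWreathProduct.right hg
  have hl : comp0 φ g 1 = 1 := congrFun (congrArg RegularWreathProduct.left hg) 1
  have h := congrArg Subtype.val hl
  simp only [comp0, inv_one, hr, one_mul, OneMemClass.coe_one] at h
  exact conj_eq_one_iff.1 h

/-- Functoriality of the wreath product in the base group. -/
def wmap {A B : Type} [Group A] [Group B] (ψ : A →* B) :
    RegularWreathProduct A H →* RegularWreathProduct B H where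
  toFun z := ⟨fun x => ψ (z.left x), z.right⟩
  map_one' := by
    ext x
    · simp
    · simp
  map_mul' a b := by
    ext x
    · simp
    · simp

variable {κ : Type}

/-- The universal lift of a free product element along a solution `x` in `H`. -/
noncomputable def theta (φ : G →* H) (x : κ → H) :
    M G κ →* RegularWreathProduct (M φ.ker (H × κ)) H :=
  Coprod.lift ((wmap Coprod.inl).comp (emb φ))
    (FreeGroup.lift fun j => ⟨fun u => Coprod.inr (FreeGroup.of (u, j)), x j⟩)

theorem theta_right (φ : G →* H) (x : κ → H) (z : M G κ) :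
    (theta φ x z).right = Coprod.lift φ (FreeGroup.lift x) z := by
  induction z using M_induction with
  | h1 g => simp [theta, wmap, emb]
  | h2 j => simp [theta]
  | hinv a ha => rw [map_inv, inv_right, ha, map_inv]
  | hmul a b ha hb => rw [map_mul, mul_right, ha, hb, map_mul]

theorem theta_row {R : Type} [Ring R] (φ : G →* H) (x : κ → H) (z : M G κ) :
    (∀ u, row R ((theta φ x z).left u) = shift R u (row R ((theta φ x z).left 1))) ∧
      Finsupp.lmapDomain R R Prod.snd (row R ((theta φ x z).left 1)) = row R z := by
  have hsnd : ∀ (u : H) (D : (H × κ) →₀ R),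
      Finsupp.lmapDomain R R Prod.snd (shift R u D) = Finsupp.lmapDomain R R Prod.snd D := by
    intro u D
    induction D using Finsupp.induction_linear with
    | zero => simp
    | add f g hf hg => simp only [map_add, hf, hg]
    | single q c => obtain ⟨v, j⟩ := q; simp [shift_single]
  induction z using M_induction with
  | h1 g => simp [theta, wmap, emb, row_inl]
  | h2 j => simp [theta, row_of, shift_single]
  | hmul a b ha hb =>
    constructor
    · intro u
      simp only [map_mul, mul_left, Pi.mul_apply, row_mul, map_add, mul_one]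
      rw [ha.1 u, hb.1 ((theta φ x a).right⁻¹ * u), hb.1 (theta φ x a).right⁻¹, shift_shift]
    · simp only [map_mul, mul_left, Pi.mul_apply, row_mul, map_add, mul_one]
      rw [ha.2, hb.1 (theta φ x a).right⁻¹, hsnd, hb.2]
  | hinv a ha =>
    constructor
    · intro u
      simp only [map_inv, inv_left, Pi.inv_apply, row_inv, map_neg, mul_one]
      rw [ha.1 ((theta φ x a).right * u), ha.1 (theta φ x a).right, shift_shift]
    · simp only [map_inv, inv_left, Pi.inv_apply, row_inv, map_neg, mul_one]
      rw [ha.1 (theta φ x a).right, hsnd, ha.2]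

/-- The lifted rows are independent. -/
theorem lifted_independent {p : ℕ} (φ : G →* H) (x : κ → H) (hH : Good p H) {ι : Type}
    [Fintype ι] (w : ι → M G κ)
    (hw : LinearIndependent (ZMod p) (fun i => row (ZMod p) (w i))) :
    LinearIndependent (ZMod p)
      (fun q : H × ι => row (ZMod p) ((theta φ x (w q.2)).left q.1)) := by
  have h := hH ι κ (fun i => row (ZMod p) ((theta φ x (w i)).left 1)) (by
    have : (fun i => Finsupp.lmapDomain (ZMod p) (ZMod p) Prod.snd
        (row (ZMod p) ((theta φ x (w i)).left 1))) = fun i => row (ZMod p) (w i) := by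
      funext i
      exact (theta_row φ x (w i)).2
    rw [this]; exact hw)
  have he : (fun q : H × ι => row (ZMod p) ((theta φ x (w q.2)).left q.1)) =
      fun q : H × ι => shift (ZMod p) q.1 (row (ZMod p) ((theta φ x (w q.2)).left 1)) := by
    funext q
    exact (theta_row φ x (w q.2)).1 q.1
  rw [he]; exact h

/-- Solving the lifted system solves the original system in a wreath product. -/
theorem wreath_solution {N : Type} [Group N] (φ : G →* H) (x : κ → H) {ι : Type}
    (w : ι → M G κ) (hx : ∀ i, Coprod.lift φ (FreeGroup.lift x) (w i) = 1)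
    (ψ : M φ.ker (H × κ) →* N) (hinj : Function.Injective (ψ.comp Coprod.inl))
    (hψ : ∀ (u : H) i, ψ ((theta φ x (w i)).left u) = 1) :
    ∃ (j : G →* RegularWreathProduct N H) (h : κ → RegularWreathProduct N H),
      Function.Injective j ∧ ∀ i, Coprod.lift j (FreeGroup.lift h) (w i) = 1 := by
  refine ⟨(wmap (ψ.comp Coprod.inl)).comp (emb φ),
    fun j => ⟨fun u => ψ (Coprod.inr (FreeGroup.of (u, j))), x j⟩, ?_, fun i => ?_⟩
  · intro a b hab
    apply emb_injective φ
    have hab' : wmap (ψ.comp Coprod.inl) (emb φ a) = wmap (ψ.comp Coprod.inl) (emb φ b) := hab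
    refine RegularWreathProduct.ext ?_ ?_
    · funext u
      exact hinj (congrFun (congrArg RegularWreathProduct.left hab') u)
    · exact (congrArg RegularWreathProduct.right hab' :)
  · have he : Coprod.lift ((wmap (ψ.comp Coprod.inl)).comp (emb φ)) (FreeGroup.lift fun j =>
        (⟨fun u => ψ (Coprod.inr (FreeGroup.of (u, j))), x j⟩ : RegularWreathProduct N H)) =
        (wmap ψ).comp (theta φ x) := by
      refine Coprod.hom_ext ?_ ?_
      · ext g <;> simp [theta, wmap]
      · ext j <;> simp [theta, wmap]
    rw [he]
    refine RegularWreathProduct.ext ?_ ?_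
    · funext u
      exact hψ u i
    · change (theta φ x (w i)).right = 1
      rw [theta_right]
      exact hx i

end Vale.Agent.P174
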